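import Vale.Agent.P221.H240.Defs
import Mathlib.CategoryTheory.Triangulated.Subcategory
import Mathlib.CategoryTheory.Monoidal.Braided.Basic

/-!
Homotopy groups, boundedness and truncation in an axiomatic stable homotopy category (P221).
-/

set_option linter.unusedSectionVars false
set_option linter.unusedVariables false

open CategoryTheory Limits Pretriangulated MonoidalCategory
open scoped ZeroObject

universe v u

namespace Vale.Agent.P221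

open Vale.Agent.P261

variable {C : Type u} [Category.{v} C] [Preadditive C] [HasZeroObject C]
    [HasShift C ℤ] [∀ n : ℤ, (shiftFunctor C n).Additive] [Pretriangulated C]
    [MonoidalCategory C]

lemma shift_rep {W X : C} (i a j : ℤ) (h : j + a = i) (y : W⟦i⟧ ⟶ X⟦a⟧) :
    ∃ x : W⟦j⟧ ⟶ X, y = (shiftFunctorAdd' C j a i h).hom.app W ≫ x⟦a⟧' := by
  obtain ⟨x, hx⟩ := (shiftFunctor C a).map_surjective
    ((shiftFunctorAdd' C j a i h).inv.app W ≫ y)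
  refine ⟨x, ?_⟩
  rw [hx]
  simp

lemma finite_shift {X : C} {i a j : ℤ} (h : j + a = i) (hf : Finite ((𝟙_ C)⟦j⟧ ⟶ X)) :
    Finite ((𝟙_ C)⟦i⟧ ⟶ X⟦a⟧) :=
  Finite.of_surjective (fun x : (𝟙_ C)⟦j⟧ ⟶ X => (shiftFunctorAdd' C j a i h).hom.app _ ≫ x⟦a⟧')
    (fun y => by
      obtain ⟨x, hx⟩ := shift_rep i a j h y
      exact ⟨x, hx.symm⟩)

lemma Vanish.shift {X : C} {i a j : ℤ} (h : j + a = i) (hf : Vanish X j) : Vanish (X⟦a⟧) i := by
  intro y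
  obtain ⟨x, hx⟩ := shift_rep i a j h y
  rw [hx, hf x]
  simp

lemma Vanish.of_retract {X Y : C} (i : X ⟶ Y) (r : Y ⟶ X) (h : i ≫ r = 𝟙 X) {k : ℤ}
    (hY : Vanish Y k) : Vanish X k := by
  intro x
  have h1 : x ≫ i = 0 := hY _
  rw [← Category.comp_id x, ← h, ← Category.assoc, h1, zero_comp]

lemma Vanish.obj₂ {T : Triangle C} (hT : T ∈ distTriang C) {i : ℤ} (h₁ : Vanish T.obj₁ i)
    (h₃ : Vanish T.obj₃ i) : Vanish T.obj₂ i := by
  intro x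
  obtain ⟨y, hy⟩ := Triangle.coyoneda_exact₂ T hT x (h₃ _)
  rw [hy, h₁ y, zero_comp]

lemma Vanish.obj₃ {T : Triangle C} (hT : T ∈ distTriang C) {i : ℤ} (h₁ : Vanish T.obj₁ (i - 1))
    (h₂ : Vanish T.obj₂ i) : Vanish T.obj₃ i :=
  Vanish.obj₂ (rot_of_distTriang T hT) h₂ (h₁.shift (by ring))

lemma Vanish.obj₁ {T : Triangle C} (hT : T ∈ distTriang C) {i : ℤ} (h₂ : Vanish T.obj₂ i)
    (h₃ : Vanish T.obj₃ (i + 1)) : Vanish T.obj₁ i :=
  Vanish.obj₂ (inv_rot_of_distTriang T hT) (h₃.shift (by ring)) h₂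

lemma finite_obj₂ {T : Triangle C} (hT : T ∈ distTriang C) {i : ℤ}
    (h₁ : Finite ((𝟙_ C)⟦i⟧ ⟶ T.obj₁)) (h₃ : Finite ((𝟙_ C)⟦i⟧ ⟶ T.obj₃)) :
    Finite ((𝟙_ C)⟦i⟧ ⟶ T.obj₂) := by
  refine isSmallness_finite.of_exact (A := (𝟙_ C)⟦i⟧ ⟶ T.obj₁) (D := (𝟙_ C)⟦i⟧ ⟶ T.obj₃) h₁ h₃
    (fun f => f ≫ T.mor₁)
    (AddMonoidHom.mk' (fun f : (𝟙_ C)⟦i⟧ ⟶ T.obj₂ => f ≫ T.mor₂) (fun f g => by simp)) (fun f hf => ?_)
  obtain ⟨g, hg⟩ := Triangle.coyoneda_exact₂ T hT f hf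
  exact ⟨g, hg.symm⟩

lemma finite_obj₃ {T : Triangle C} (hT : T ∈ distTriang C) {i : ℤ}
    (h₁ : Finite ((𝟙_ C)⟦i - 1⟧ ⟶ T.obj₁)) (h₂ : Finite ((𝟙_ C)⟦i⟧ ⟶ T.obj₂)) :
    Finite ((𝟙_ C)⟦i⟧ ⟶ T.obj₃) :=
  finite_obj₂ (rot_of_distTriang T hT) h₂ (finite_shift (by ring) h₁)

lemma finite_obj₁ {T : Triangle C} (hT : T ∈ distTriang C) {i : ℤ}
    (h₂ : Finite ((𝟙_ C)⟦i⟧ ⟶ T.obj₂)) (h₃ : Finite ((𝟙_ C)⟦i + 1⟧ ⟶ T.obj₃)) :
    Finite ((𝟙_ C)⟦i⟧ ⟶ T.obj₁) :=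
  finite_obj₂ (inv_rot_of_distTriang T hT) (finite_shift (by ring) h₃) h₂

lemma DegFinite.obj₃ {T : Triangle C} (hT : T ∈ distTriang C) (h₁ : DegFinite T.obj₁)
    (h₂ : DegFinite T.obj₂) : DegFinite T.obj₃ := fun i => finite_obj₃ hT (h₁ _) (h₂ i)

lemma DegFinite.shift {X : C} (h : DegFinite X) (a : ℤ) : DegFinite (X⟦a⟧) := fun i =>
  finite_shift (j := i - a) (by ring) (h _)

lemma DegFinite.of_retract {X Y : C} (i : X ⟶ Y) (r : Y ⟶ X) (h : i ≫ r = 𝟙 X)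
    (hY : DegFinite Y) : DegFinite X := fun k => by
  have := hY k
  exact Finite.of_surjective (fun f : (𝟙_ C)⟦k⟧ ⟶ Y => f ≫ r) (fun f => ⟨f ≫ i, by simp [h]⟩)

lemma DegFinite.of_iso {X Y : C} (e : X ≅ Y) (hY : DegFinite Y) : DegFinite X :=
  hY.of_retract e.hom e.inv e.hom_inv_id

lemma BddBelow.shift {X : C} (h : BddBelow X) (a : ℤ) : BddBelow (X⟦a⟧) := by
  obtain ⟨m, hm⟩ := h
  exact ⟨m + a, fun i hi => (hm (i - a) (by omega)).shift (by ring)⟩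

lemma BddBelow.of_retract {X Y : C} (i : X ⟶ Y) (r : Y ⟶ X) (h : i ≫ r = 𝟙 X)
    (hY : BddBelow Y) : BddBelow X := by
  obtain ⟨m, hm⟩ := hY
  exact ⟨m, fun k hk => (hm k hk).of_retract i r h⟩

lemma BddBelow.obj₃ {T : Triangle C} (hT : T ∈ distTriang C) (h₁ : BddBelow T.obj₁)
    (h₂ : BddBelow T.obj₂) : BddBelow T.obj₃ := by
  obtain ⟨m, hm⟩ := h₁
  obtain ⟨m', hm'⟩ := h₂
  refine ⟨min m m', fun i hi => Vanish.obj₃ hT (hm _ ?_) (hm' _ ?_)⟩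
  · have := min_le_left m m'
    omega
  · have := min_le_right m m'
    omega

/-- The class of bounded above objects. -/
def aboveP : ObjectProperty C := fun X => BddAbove' X

lemma BddAbove'.shift {X : C} (h : BddAbove' X) (a : ℤ) : BddAbove' (X⟦a⟧) := by
  obtain ⟨m, hm⟩ := h
  exact ⟨m + a, fun i hi => (hm (i - a) (by omega)).shift (by ring)⟩

lemma BddAbove'.of_retract {X Y : C} (i : X ⟶ Y) (r : Y ⟶ X) (h : i ≫ r = 𝟙 X)
    (hY : BddAbove' Y) : BddAbove' X := by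
  obtain ⟨m, hm⟩ := hY
  exact ⟨m, fun k hk => (hm k hk).of_retract i r h⟩

lemma BddAbove'.obj₂ {T : Triangle C} (hT : T ∈ distTriang C) (h₁ : BddAbove' T.obj₁)
    (h₃ : BddAbove' T.obj₃) : BddAbove' T.obj₂ := by
  obtain ⟨m, hm⟩ := h₁
  obtain ⟨m', hm'⟩ := h₃
  refine ⟨max m m', fun i hi => Vanish.obj₂ hT (hm _ ?_) (hm' _ ?_)⟩
  · have := le_max_left m m'
    omega
  · have := le_max_right m m'
    omega

instance : (aboveP (C := C)).IsClosedUnderIsomorphisms where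
  of_iso {X Y} e h := BddAbove'.of_retract e.inv e.hom e.inv_hom_id h

instance : (aboveP (C := C)).ContainsZero where
  exists_zero := ⟨0, isZero_zero C, 0, fun _ _ x => (isZero_zero C).eq_of_tgt x 0⟩

instance : (aboveP (C := C)).IsStableUnderShift ℤ where
  isStableUnderShiftBy a := { le_shift := fun X hX => BddAbove'.shift hX a }

instance : (aboveP (C := C)).IsTriangulatedClosed₂ :=
  .mk' (fun T hT h₁ h₃ => BddAbove'.obj₂ hT h₁ h₃)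

instance : (aboveP (C := C)).IsTriangulated where

end Vale.Agent.P221
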