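import Vale.Agent.P221.H240.Trunc
import Mathlib.CategoryTheory.Triangulated.Triangulated

/-!
Thick subcategories and connective covers (P221).
-/

set_option linter.unusedSectionVars false
set_option linter.unusedVariables false

open CategoryTheory Limits Pretriangulated MonoidalCategory
open scoped ZeroObject

universe v u

namespace Vale.Agent.P221

open Vale.Agent.P261

variable {C : Type u} [Category.{v} C] [Preadditive C] [HasZeroObject C]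
    [HasShift C ℤ] [∀ n : ℤ, (shiftFunctor C n).Additive] [Pretriangulated C]
    [MonoidalCategory C] [IsTriangulated C]

variable {Q : C → Prop}

/-- There is a bounded below object of `Thick Q` with finite homotopy groups which agrees with `Y`
in high degrees. -/
def HasModel (Q : C → Prop) (Y : C) : Prop :=
  ∃ (A : C) (f : A ⟶ Y), Thick Q A ∧ BddBelow A ∧ DegFinite A ∧ aboveP.trW f

/-- Factor the cover through a model. -/
lemma exists_lift (hPost : HasPostnikov C) {A Y τ E : C} {f : A ⟶ Y} (hf : aboveP.trW f)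
    {M : ℤ} : ∃ M₀ : ℤ, ∀ M, M₀ ≤ M → ∀ (τ E : C) (t : τ ⟶ Y) (q : Y ⟶ E) (r : E ⟶ τ⟦(1 : ℤ)⟧),
      Triangle.mk t q r ∈ distTriang C → (∀ i, i < M → Vanish τ i) → (∀ i, M ≤ i → Vanish E i) →
      ∃ s : τ ⟶ A, s ≫ f = t ∧ aboveP.trW s := by
  obtain ⟨Z, g, h, hT, m, hm⟩ := hf
  refine ⟨m, fun M hM τ E t q r hT' hτ hE => ?_⟩
  have h0 : t ≫ g = 0 := hPost.orth τ Z M hτ (fun i hi => hm i (by omega)) _
  obtain ⟨s, hs⟩ : ∃ s : τ ⟶ A, t = s ≫ f := Triangle.coyoneda_exact₂ _ hT t h0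
  refine ⟨s, hs.symm, ?_⟩
  obtain ⟨D, a, b, hD⟩ := distinguished_cocone_triangle s
  refine ⟨D, a, b, hD, ?_⟩
  have ho := (Triangulated.someOctahedron hs.symm hD hT hT').mem
  have hZ : aboveP (C := C) Z := ⟨m, hm⟩
  have hE' : aboveP (C := C) E := ⟨M, hE⟩
  exact aboveP.ext_of_isTriangulatedClosed₁ _ ho hE' hZ

section

variable {p : ℕ} [hp : Fact p.Prime] {H : C} {u : (𝟙_ C)⟦(0 : ℤ)⟧ ⟶ H}
  (hPost : HasPostnikov C) (hH : IsEilenbergMacLane p u)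
  (hloc : ∀ (X : C) (q : ℤ), IsCoprime q (p : ℤ) → IsIso (q • 𝟙 X)) (hHQ : Thick Q H)
include hPost hH hloc hHQ

/-- The cone of a map between bounded below objects with finite homotopy which is an isomorphism
in high degrees. -/
lemma thick_cone_of_trW {A B : C} {s : A ⟶ B} (hA : BddBelow A) (hB : BddBelow B)
    (hA' : DegFinite A) (hB' : DegFinite B) (hs : aboveP.trW s) : Thick Q A ↔ Thick Q B := by
  obtain ⟨D, a, b, hD, hDa⟩ := hs
  have h1 : Thick Q D := thick_of_bounded hPost hH hloc hHQ (BddBelow.obj₃ hD hA hB) hDa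
    (DegFinite.obj₃ hD hA' hB')
  exact ⟨fun h => thick_obj₂ hD h h1, fun h => thick_obj₁ hD h h1⟩

lemma cover_finite {Y τ E : C} {t : τ ⟶ Y} {q : Y ⟶ E} {r : E ⟶ τ⟦(1 : ℤ)⟧} {M : ℤ}
    (hT : Triangle.mk t q r ∈ distTriang C) (hY : DegFinite Y) (hτ : ∀ i, i < M → Vanish τ i)
    (hE : ∀ i, M ≤ i → Vanish E i) : DegFinite τ := by
  intro i
  rcases lt_or_ge i M with h | h
  · exact finite_of_vanish (hτ i h)
  · exact finite_obj₁ hT (hY i) (finite_of_vanish (hE _ (by omega)))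

/-- All models agree up to `Thick Q`. -/
theorem HasModel.unique {Y A' : C} (hY : DegFinite Y) (h : HasModel Q Y) {f' : A' ⟶ Y}
    (h₁ : BddBelow A') (h₂ : DegFinite A') (h₃ : aboveP.trW f') : Thick Q A' := by
  obtain ⟨A, f, hA, hA1, hA2, hf⟩ := h
  obtain ⟨M₁, hM₁⟩ := exists_lift hPost (τ := A) (E := A) hf (M := 0)
  obtain ⟨M₂, hM₂⟩ := exists_lift hPost (τ := A) (E := A) h₃ (M := 0)
  obtain ⟨τ, E, t, q, r, hT, hτ, hE⟩ := hPost.cover Y (max M₁ M₂)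
  obtain ⟨s, hs, hs'⟩ := hM₁ _ (le_max_left _ _) τ E t q r hT hτ hE
  obtain ⟨s₂, hs₂, hs₂'⟩ := hM₂ _ (le_max_right _ _) τ E t q r hT hτ hE
  have hτf := cover_finite hPost hH hloc hHQ hT hY hτ hE
  have h4 := (thick_cone_of_trW hPost hH hloc hHQ ⟨_, hτ⟩ hA1 hτf hA2 hs').2 hA
  exact (thick_cone_of_trW hPost hH hloc hHQ ⟨_, hτ⟩ h₁ hτf h₂ hs₂').1 h4

lemma HasModel.shift {Y : C} (h : HasModel Q Y) (a : ℤ) : HasModel Q (Y⟦a⟧) := by
  obtain ⟨A, f, hA, hA1, hA2, hf⟩ := h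
  exact ⟨A⟦a⟧, f⟦a⟧', hA.shift a, hA1.shift a, hA2.shift a, hf.shift a⟩

lemma HasModel.retract {X Y : C} (i : X ⟶ Y) (r : Y ⟶ X) (hir : i ≫ r = 𝟙 X) (hY : DegFinite Y)
    (h : HasModel Q Y) : HasModel Q X := by
  have hX : DegFinite X := hY.of_retract i r hir
  obtain ⟨A, f, hA, hA1, hA2, hf⟩ := h
  obtain ⟨M, hM⟩ := exists_lift hPost (τ := A) (E := A) hf (M := 0)
  obtain ⟨τY, EY, tY, qY, rY, hTY, hτY, hEY⟩ := hPost.cover Y M
  obtain ⟨τX, EX, tX, qX, rX, hTX, hτX, hEX⟩ := hPost.cover X M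
  obtain ⟨s, hs, hs'⟩ := hM M le_rfl τY EY tY qY rY hTY hτY hEY
  have hτYf := cover_finite hPost hH hloc hHQ hTY hY hτY hEY
  have hτXf := cover_finite hPost hH hloc hHQ hTX hX hτX hEX
  have hτYt := (thick_cone_of_trW hPost hH hloc hHQ ⟨_, hτY⟩ hA1 hτYf hA2 hs').2 hA
  -- the cover of `X` is a retract of the cover of `Y`
  obtain ⟨i', hi'⟩ : ∃ i' : τX ⟶ τY, tX ≫ i = i' ≫ tY :=
    Triangle.coyoneda_exact₂ _ hTY _ (hPost.orth _ _ M hτX hEY _)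
  obtain ⟨r', hr'⟩ : ∃ r' : τY ⟶ τX, tY ≫ r = r' ≫ tX :=
    Triangle.coyoneda_exact₂ _ hTX _ (hPost.orth _ _ M hτY hEX _)
  have hid : i' ≫ r' = 𝟙 τX := by
    have h1 : (i' ≫ r' - 𝟙 τX) ≫ tX = 0 := by
      rw [Preadditive.sub_comp, Category.assoc, ← hr', ← Category.assoc, ← hi', Category.assoc,
        hir, Category.comp_id, Category.id_comp, sub_self]
    obtain ⟨y, hy⟩ : ∃ y : τX ⟶ (Triangle.mk tX qX rX).invRotate.obj₁, i' ≫ r' - 𝟙 τX =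
        y ≫ (Triangle.mk tX qX rX).invRotate.mor₁ :=
      Triangle.coyoneda_exact₂ _ (inv_rot_of_distTriang _ hTX) _ h1
    have h2 : y = 0 := hPost.orth τX (EX⟦(-1 : ℤ)⟧) M hτX
      (fun k hk => (hEX (k + 1) (by omega)).shift (by ring)) y
    rw [h2] at hy
    exact sub_eq_zero.mp (hy.trans zero_comp)
  exact ⟨τX, tX, Thick.retract i' r' hid hτYt, ⟨_, hτX⟩, hτXf, EX, qX, rX, hTX, M, hEX⟩

lemma HasModel.cone {T : Triangle C} (hT : T ∈ distTriang C) (h₁ : HasModel Q T.obj₁)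
    (h₂ : HasModel Q T.obj₂) (hf₁ : DegFinite T.obj₁) : HasModel Q T.obj₃ := by
  obtain ⟨A₁, f₁, hA₁, hb₁, hd₁, hw₁⟩ := h₁
  obtain ⟨A₂, f₂, hA₂, hb₂, hd₂, hw₂⟩ := h₂
  obtain ⟨M₁, hM₁⟩ := exists_lift hPost (τ := A₁) (E := A₁) hw₁ (M := 0)
  obtain ⟨Z, g, e, hZT, m, hm⟩ := hw₂
  obtain ⟨τ, E, t, q, r, hTτ, hτ, hE⟩ := hPost.cover T.obj₁ (max M₁ m)
  obtain ⟨s, hs, hs'⟩ := hM₁ _ (le_max_left _ _) τ E t q r hTτ hτ hE
  have hτf := cover_finite hPost hH hloc hHQ hTτ hf₁ hτ hE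
  have hτt := (thick_cone_of_trW hPost hH hloc hHQ ⟨_, hτ⟩ hb₁ hτf hd₁ hs').2 hA₁
  have hwt : aboveP.trW t := ⟨E, q, r, hTτ, _, hE⟩
  have hwf₂ : aboveP.trW f₂ := ⟨Z, g, e, hZT, m, hm⟩
  -- lift `τ ⟶ T.obj₁ ⟶ T.obj₂` to `A₂`
  obtain ⟨b, hb⟩ : ∃ b : τ ⟶ A₂, t ≫ T.mor₁ = b ≫ f₂ := by
    refine Triangle.coyoneda_exact₂ _ hZT _ ?_
    have hle := le_max_right M₁ m
    exact hPost.orth _ _ (max M₁ m) hτ (fun i hi => hm i (by omega)) _
  obtain ⟨A₃, a, c, hA₃⟩ := distinguished_cocone_triangle b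
  obtain ⟨f₃, hf₃, _, _⟩ := MorphismProperty.compatible_with_triangulation
    (W := (aboveP (C := C)).trW) (Triangle.mk b a c) T hA₃ hT t f₂ hwt hwf₂ (by exact hb.symm)
  refine ⟨A₃, f₃, Thick.cone hA₃ hτt hA₂, BddBelow.obj₃ hA₃ ⟨_, hτ⟩ hb₂,
    DegFinite.obj₃ hA₃ hτf hd₂, hf₃⟩

/-- **Models pass to thick subcategories.** -/
theorem thick_hasModel {Q' : C → Prop} (h : ∀ X, Q' X → HasModel Q X ∧ DegFinite X) {Y : C}
    (hY : Thick Q' Y) : HasModel Q Y ∧ DegFinite Y := by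
  induction hY with
  | of hX => exact h _ hX
  | shift a _ ih => exact ⟨ih.1.shift hPost hH hloc hHQ a, ih.2.shift a⟩
  | cone hT _ _ ih₁ ih₂ =>
    exact ⟨HasModel.cone hPost hH hloc hHQ hT ih₁.1 ih₂.1 ih₁.2, DegFinite.obj₃ hT ih₁.2 ih₂.2⟩
  | retract i r hir _ ih =>
    exact ⟨HasModel.retract hPost hH hloc hHQ i r hir ih.2 ih.1, ih.2.of_retract i r hir⟩

end

end Vale.Agent.P221
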