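import Vale.Agent.P261.H260.Main
import Mathlib.CategoryTheory.Monoidal.Mon

/-!
Definitions: homotopy groups, fp-spectra, finite spectra and the published theorems (P221).
-/

set_option linter.unusedSectionVars false
set_option linter.unusedVariables false

open CategoryTheory Limits Pretriangulated MonoidalCategory
open scoped ZeroObject

universe v u

namespace Vale.Agent.P221

open Vale.Agent.P261

variable {C : Type u} [Category.{v} C] [Preadditive C] [HasZeroObject C]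
    [HasShift C ℤ] [∀ n : ℤ, (shiftFunctor C n).Additive] [Pretriangulated C]
    [MonoidalCategory C]

/-- `π_i X = 0`, where `π_i X` is the group of maps from the `i`-th suspension of the unit to `X`. -/
def Vanish (X : C) (i : ℤ) : Prop := ∀ x : (𝟙_ C)⟦i⟧ ⟶ X, x = 0

/-- All homotopy groups of `X` are finite. -/
def DegFinite (X : C) : Prop := ∀ i : ℤ, Finite ((𝟙_ C)⟦i⟧ ⟶ X)

/-- The homotopy groups of `X` vanish below some degree. -/
def BddBelow (X : C) : Prop := ∃ m : ℤ, ∀ i, i < m → Vanish X i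

/-- The homotopy groups of `X` vanish above some degree. -/
def BddAbove' (X : C) : Prop := ∃ m : ℤ, ∀ i, m ≤ i → Vanish X i

variable (C) in
/-- The standard t-structure of spectra: every object has an `m`-connective cover with cofibre
concentrated in degrees below `m`, and there are no nonzero maps from `m`-connective objects to
objects concentrated in degrees below `m`. -/
structure HasPostnikov : Prop where
  cover : ∀ (Y : C) (m : ℤ), ∃ (A E : C) (f : A ⟶ Y) (g : Y ⟶ E) (h : E ⟶ A⟦(1 : ℤ)⟧),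
    Triangle.mk f g h ∈ distTriang C ∧ (∀ i, i < m → Vanish A i) ∧ (∀ i, m ≤ i → Vanish E i)
  orth : ∀ (A E : C) (m : ℤ), (∀ i, i < m → Vanish A i) → (∀ i, m ≤ i → Vanish E i) →
    ∀ f : A ⟶ E, f = 0

/-- `u : 𝟙 ⟶ H` exhibits `H` as the Eilenberg-MacLane spectrum of `ℤ/p`. -/
structure IsEilenbergMacLane (p : ℕ) {H : C} (u : (𝟙_ C)⟦(0 : ℤ)⟧ ⟶ H) : Prop where
  vanish : ∀ i, i ≠ 0 → Vanish H i
  gen : ∀ y : (𝟙_ C)⟦(0 : ℤ)⟧ ⟶ H, ∃ k : ℤ, y = k • u
  torsion : (p : ℤ) • u = 0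
  lift : ∀ W : C, (∀ i, i ≠ 0 → Vanish W i) → ∀ x : (𝟙_ C)⟦(0 : ℤ)⟧ ⟶ W, (p : ℤ) • x = 0 →
    ∃ φ : H ⟶ W, u ≫ φ = x

/-- Finite spectra: the thick subcategory generated by the unit. -/
def IsFiniteSpectrum (F : C) : Prop := Thick (fun W => W = 𝟙_ C) F

/-- `K j ⊗ F = 0` for all `j < n`. -/
def TypeGE (K : ℕ → C) (n : ℕ) (F : C) : Prop := ∀ j, j < n → IsZero (K j ⊗ F)

/-- `X` is `p`-complete: it receives no nonzero map from an object on which `p` is invertible. -/
def IsPComplete (p : ℕ) (X : C) : Prop := ∀ W : C, IsIso ((p : ℤ) • 𝟙 W) → ∀ f : W ⟶ X, f = 0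

/-- The homotopy of `X` is finite in total. -/
def FiniteInTotal (X : C) : Prop := DegFinite X ∧ BddBelow X ∧ BddAbove' X

/-- `X` is an fp-spectrum of fp-type at most `n`. -/
structure IsFpTypeLE (p : ℕ) (K : ℕ → C) (n : ℕ) (X : C) : Prop where
  bddBelow : BddBelow X
  complete : IsPComplete p X
  test : ∃ V : C, IsFiniteSpectrum V ∧ TypeGE K (n + 1) V ∧ ¬ IsZero (K (n + 1) ⊗ V) ∧
    FiniteInTotal (X ⊗ V)

/-- The power `w ^ N : Σ^{N d} F ⟶ F` of a graded self map `w : Σ^d F ⟶ F`. -/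
noncomputable def wpow {F : C} {d : ℤ} (w : F⟦d⟧ ⟶ F) : (N : ℕ) → (F⟦(N : ℤ) * d⟧ ⟶ F)
  | 0 => (shiftFunctorZero' C _ (by simp)).hom.app F
  | N + 1 => shiftMap w (((N + 1 : ℕ) : ℤ) * d) ((N : ℤ) * d) (by push_cast; ring) ≫ wpow w N

/-- `w : Σ^d F ⟶ F` is a `v_n`-self map: an isomorphism on `K n`, nilpotent on the other Morava
K-theories and on mod `p` homology `H`, with `d ≥ 0`, and `d > 0` if `n ≥ 1`. -/
structure IsSelfMap (K : ℕ → C) (H : C) (n : ℕ) {F : C} {d : ℤ} (w : F⟦d⟧ ⟶ F) : Prop where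
  nonneg : 0 ≤ d
  pos : 1 ≤ n → 0 < d
  iso : IsIso (K n ◁ w)
  nilp : ∀ m, m ≠ n → ∃ N, K m ◁ wpow w N = 0
  nilpH : ∃ N, H ◁ wpow w N = 0

variable (C) in
/-- The periodicity theorem. -/
def Periodicity (K : ℕ → C) (H : C) : Prop :=
  ∀ (n : ℕ) (F : C), IsFiniteSpectrum F → TypeGE K n F →
    ∃ (d : ℤ) (w : F⟦d⟧ ⟶ F), IsSelfMap K H n w

variable (C) in
/-- The thick subcategory theorem. -/
def ThickTheorem (K : ℕ → C) : Prop :=
  ∀ (n : ℕ) (V F : C), IsFiniteSpectrum V → TypeGE K n V → ¬ IsZero (K n ⊗ V) →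
    IsFiniteSpectrum F → TypeGE K n F → Thick (fun W => W = V) F

variable (C) in
/-- The theorem of Mahowald and Rezk: if `X` is fp of fp-type at most `n`, `η : X ⟶ L` is its
`K n`-localization and `F` is finite of type at least `n`, then `η ⊗ F` is an isomorphism on
homotopy in all large degrees. -/
def MahowaldRezk (p : ℕ) (K : ℕ → C) (n : ℕ) : Prop :=
  ∀ (X L : C) (η : X ⟶ L), IsFpTypeLE p K n X →
    IsBousfieldLocalization (fun _ : Unit => K n) η →
    ∀ F : C, IsFiniteSpectrum F → TypeGE K n F →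
      ∃ N : ℤ, ∀ i, N ≤ i → Function.Bijective (fun x : (𝟙_ C)⟦i⟧ ⟶ X ⊗ F => x ≫ η ▷ F)

/-- The local theorem of Lee and Pstragowski: every locally fp `K n`-local spectrum lies in the
thick subcategory generated by `B'`, where `B'` is the `K n`-localization of `BP⟨n⟩`. -/
def LocalTheorem (K : ℕ → C) (n : ℕ) (B' : C) : Prop :=
  ∀ Y : C, IsLocal (fun _ : Unit => K n) Y →
    (∀ F : C, IsFiniteSpectrum F → TypeGE K n F → DegFinite (Y ⊗ F)) →
    Thick (fun W => W = B') Y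

variable (C) in
/-- The nilpotence theorem of Devinatz, Hopkins and Smith: if `R` is a ring spectrum, `F` is finite
and a graded self map `w` of `F` is nilpotent after tensoring with `K m ⊗ R` for all `m` and with
`H ⊗ R`, then it is nilpotent after tensoring with `R`. -/
def NilpotenceTheorem (K : ℕ → C) (H : C) : Prop :=
  ∀ (R F : C) [MonObj R], IsFiniteSpectrum F → ∀ (d : ℤ) (w : F⟦d⟧ ⟶ F),
    (∀ m, ∃ N, (K m ⊗ R) ◁ wpow w N = 0) → (∃ N, (H ⊗ R) ◁ wpow w N = 0) →
      ∃ N, R ◁ wpow w N = 0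

end Vale.Agent.P221
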