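import Vale.Agent.P221.H240.Compare

/-!
fp-spectra, finite spectra and their types (P221).
-/

set_option linter.unusedSectionVars false
set_option linter.unusedVariables false

open CategoryTheory Limits Pretriangulated MonoidalCategory
open scoped ZeroObject

universe v u

namespace Vale.Agent.P221

open Vale.Agent.P261

variable {C : Type u} [Category.{v} C] [Preadditive C] [HasZeroObject C]
    [HasShift C ℤ] [∀ n : ℤ, (shiftFunctor C n).Additive] [Pretriangulated C]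
    [MonoidalCategory C]

lemma thick_trans {Q Q' : C → Prop} (h : ∀ X, Q X → Thick Q' X) {Y : C} (hY : Thick Q Y) :
    Thick Q' Y := by
  induction hY with
  | of hX => exact h _ hX
  | shift a _ ih => exact ih.shift a
  | cone hT _ _ ih₁ ih₂ => exact Thick.cone hT ih₁ ih₂
  | retract i r hir _ ih => exact Thick.retract i r hir ih

lemma FiniteInTotal.thick {X : C} (hX : FiniteInTotal X) {Y : C}
    (hY : Thick (fun W => W = X) Y) : FiniteInTotal Y := by
  induction hY with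
  | of h => rwa [h]
  | shift a _ ih => exact ⟨ih.1.shift a, ih.2.1.shift a, ih.2.2.shift a⟩
  | cone hT _ _ ih₁ ih₂ =>
    exact ⟨DegFinite.obj₃ hT ih₁.1 ih₂.1, BddBelow.obj₃ hT ih₁.2.1 ih₂.2.1,
      BddAbove'.obj₂ (rot_of_distTriang _ hT) ih₂.2.2 (ih₁.2.2.shift 1)⟩
  | retract i r hir _ ih =>
    exact ⟨ih.1.of_retract i r hir, ih.2.1.of_retract i r hir, ih.2.2.of_retract i r hir⟩

lemma BddBelow.thick {X : C} (hX : BddBelow X) {Y : C}
    (hY : Thick (fun W => W = X) Y) : BddBelow Y := by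
  induction hY with
  | of h => rwa [h]
  | shift a _ ih => exact ih.shift a
  | cone hT _ _ ih₁ ih₂ => exact BddBelow.obj₃ hT ih₁ ih₂
  | retract i r hir _ ih => exact ih.of_retract i r hir

variable [TensorTriangulated C]

lemma nonempty_tensorShift (X F : C) (a : ℤ) : Nonempty (X ⊗ (F⟦a⟧) ≅ (X ⊗ F)⟦a⟧) := by
  have hneg : ∀ G : C, Nonempty (X ⊗ (G⟦(-1 : ℤ)⟧) ≅ (X ⊗ G)⟦(-1 : ℤ)⟧) := by
    intro G
    have e1 : (X ⊗ (G⟦(-1 : ℤ)⟧))⟦(1 : ℤ)⟧ ≅ X ⊗ G :=
      (TensorTriangulated.shiftIso X (G⟦(-1 : ℤ)⟧)).symm ≪≫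
        whiskerLeftIso X (shiftNegShift G (1 : ℤ))
    exact ⟨(shiftShiftNeg _ (1 : ℤ)).symm ≪≫ (shiftFunctor C (-1 : ℤ)).mapIso e1⟩
  induction a using Int.induction_on with
  | zero =>
    exact ⟨whiskerLeftIso X ((shiftFunctorZero C ℤ).app F) ≪≫
      ((shiftFunctorZero C ℤ).app (X ⊗ F)).symm⟩
  | succ a ih =>
    obtain ⟨e⟩ := ih
    exact ⟨whiskerLeftIso X ((shiftFunctorAdd C (a : ℤ) 1).app F) ≪≫
      TensorTriangulated.shiftIso X (F⟦(a : ℤ)⟧) ≪≫ (shiftFunctor C (1 : ℤ)).mapIso e ≪≫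
      ((shiftFunctorAdd C (a : ℤ) 1).app (X ⊗ F)).symm⟩
  | pred a ih =>
    obtain ⟨e⟩ := ih
    obtain ⟨e'⟩ := hneg (F⟦-(a : ℤ)⟧)
    exact ⟨whiskerLeftIso X ((shiftFunctorAdd C (-(a : ℤ)) (-1)).app F) ≪≫ e' ≪≫
      (shiftFunctor C (-1 : ℤ)).mapIso e ≪≫
      ((shiftFunctorAdd C (-(a : ℤ)) (-1)).app (X ⊗ F)).symm⟩

/-- Tensoring preserves thick subcategories. -/
lemma tensor_thick (X : C) {Q Q' : C → Prop} (h : ∀ Z, Q Z → Thick Q' (X ⊗ Z)) {Y : C}
    (hY : Thick Q Y) : Thick Q' (X ⊗ Y) := by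
  induction hY with
  | of hX => exact h _ hX
  | @shift Y a _ ih =>
    obtain ⟨e⟩ := nonempty_tensorShift X Y a
    exact thick_of_iso e (ih.shift a)
  | cone hT _ _ ih₁ ih₂ => exact Thick.cone (TensorTriangulated.distinguished X _ hT) ih₁ ih₂
  | retract i r hir _ ih =>
    exact Thick.retract (X ◁ i) (X ◁ r) (by
      rw [← MonoidalCategory.whiskerLeft_comp, hir, MonoidalCategory.whiskerLeft_id]) ih

/-- If `F` is finite then `X ⊗ F` lies in the thick subcategory generated by `X`. -/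
lemma thick_tensor_finite (X : C) {F : C} (hF : IsFiniteSpectrum F) :
    Thick (fun W => W = X) (X ⊗ F) := by
  refine tensor_thick X (fun Z hZ => ?_) hF
  rw [hZ]
  exact thick_of_iso (ρ_ X) (Thick.of rfl)

lemma isLocal_thick {K X : C} (hX : IsLocal (fun _ : Unit => K) X) {Y : C}
    (hY : Thick (fun W => W = X) Y) : IsLocal (fun _ : Unit => K) Y := by
  induction hY with
  | of h => rwa [h]
  | shift a _ ih => exact ih.shift a
  | cone hT _ _ ih₁ ih₂ => exact IsLocal.obj₃ hT ih₁ ih₂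
  | retract i r hir _ ih =>
    intro W hW g
    have h1 := ih W hW (g ≫ i)
    rw [← Category.comp_id g, ← hir, ← Category.assoc, h1, zero_comp]

section types

variable {K : ℕ → C}

lemma TypeGE.mono {n m : ℕ} (h : m ≤ n) {F : C} (hF : TypeGE K n F) : TypeGE K m F :=
  fun j hj => hF j (by omega)

/-- The cofibre of a self map of a spectrum of type at least `n` which is a `K n`-equivalence. -/
lemma TypeGE.cone {n : ℕ} {F V : C} {d : ℤ} {w : F⟦d⟧ ⟶ F} {g : F ⟶ V} {e : V ⟶ (F⟦d⟧)⟦(1 : ℤ)⟧}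
    (hT : Triangle.mk w g e ∈ distTriang C) (hF : TypeGE K n F) (hw : IsIso (K n ◁ w)) :
    TypeGE K (n + 1) V := by
  intro j hj
  by_cases h : j = n
  · subst h
    exact isZero_tensor_cone hT hw
  · have h1 : IsZero (K j ⊗ F) := hF j (by omega)
    have h2 : IsZero (K j ⊗ (F⟦d⟧)) := isZero_tensor_shift h1 d
    refine isZero_tensor_cone hT ?_
    exact ⟨0, h2.eq_of_src _ _, h1.eq_of_src _ _⟩

end types

end Vale.Agent.P221
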