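import Vale.Agent.P221.H240.Fp

/-!
fp-spectra after smashing with a finite spectrum of type at least `n` (P221).
-/

set_option linter.unusedSectionVars false
set_option linter.unusedVariables false

open CategoryTheory Limits Pretriangulated MonoidalCategory
open scoped ZeroObject

universe v u

namespace Vale.Agent.P221

open Vale.Agent.P261

variable {C : Type u} [Category.{v} C] [Preadditive C] [HasZeroObject C]
    [HasShift C ℤ] [∀ n : ℤ, (shiftFunctor C n).Additive] [Pretriangulated C]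
    [MonoidalCategory C]

variable [TensorTriangulated C]

section

variable {K : ℕ → C} {H : C} {p n : ℕ}

/-- The homotopy of `X ⊗ V` is finite in total for all finite `V` of type at least `n + 1`. -/
lemma IsFpTypeLE.finiteInTotal (hthick : ThickTheorem C K) {X : C} (hX : IsFpTypeLE p K n X)
    {V : C} (hV : IsFiniteSpectrum V) (hV' : TypeGE K (n + 1) V) : FiniteInTotal (X ⊗ V) := by
  obtain ⟨V₀, h1, h2, h3, h4⟩ := hX.test
  refine h4.thick (tensor_thick X (fun Z hZ => ?_) (hthick (n + 1) V₀ V h1 h2 h3 hV hV'))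
  rw [hZ]
  exact Thick.of rfl

variable (hn : 1 ≤ n)
include hn

/-- `π_i (X ⊗ F)` is finite for an fp-spectrum `X` and a finite spectrum `F` of type `≥ n ≥ 1`. -/
lemma IsFpTypeLE.degFinite (hper : Periodicity C K H) (hthick : ThickTheorem C K) {X : C}
    (hX : IsFpTypeLE p K n X) {F : C} (hF : IsFiniteSpectrum F) (hF' : TypeGE K n F) :
    DegFinite (X ⊗ F) := by
  obtain ⟨d, w, hw⟩ := hper n F hF hF'
  have hd := hw.pos hn
  obtain ⟨V, g, e, hT⟩ := distinguished_cocone_triangle w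
  have hV : IsFiniteSpectrum V := Thick.cone hT (hF.shift d) hF
  have hV' : TypeGE K (n + 1) V := TypeGE.cone hT hF' hw.iso
  have hVf := (hX.finiteInTotal hthick hV hV').1
  have hT' := TensorTriangulated.distinguished X _ hT
  obtain ⟨m, hm⟩ := (hX.bddBelow).thick (thick_tensor_finite X hF)
  obtain ⟨ε⟩ := nonempty_tensorShift X F d
  have key : ∀ N : ℕ, ∀ i, i < m + N → Finite ((𝟙_ C)⟦i⟧ ⟶ X ⊗ F) := by
    intro N
    induction N with
    | zero => exact fun i hi => finite_of_vanish (hm i (by simpa using hi))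
    | succ N ih =>
      intro i hi
      refine finite_obj₂ hT' ?_ (hVf i)
      have h1 : Finite ((𝟙_ C)⟦i⟧ ⟶ (X ⊗ F)⟦d⟧) :=
        finite_shift (j := i - d) (by ring) (ih _ (by push_cast at hi; omega))
      exact Finite.of_surjective (β := (𝟙_ C)⟦i⟧ ⟶ X ⊗ F⟦d⟧)
        (fun f : (𝟙_ C)⟦i⟧ ⟶ (X ⊗ F)⟦d⟧ => f ≫ ε.inv)
        (fun f => ⟨f ≫ ε.hom, by
          change (f ≫ ε.hom) ≫ ε.inv = f
          rw [Category.assoc, ε.hom_inv_id, Category.comp_id]⟩)
  intro i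
  exact key (i - m + 1).toNat i (by
    have := Int.self_le_toNat (i - m + 1)
    omega)

/-- The homotopy of `L ⊗ F` is periodic for a `K n`-local `L`. -/
lemma degFinite_of_local [BraidedCategory C] (hper : Periodicity C K H) {L : C}
    (hL : IsLocal (fun _ : Unit => K n) L) {F : C} (hF : IsFiniteSpectrum F) (hF' : TypeGE K n F)
    {M : ℤ} (hM : ∀ i, M ≤ i → Finite ((𝟙_ C)⟦i⟧ ⟶ L ⊗ F)) : DegFinite (L ⊗ F) := by
  obtain ⟨d, w, hw⟩ := hper n F hF hF'
  have hd := hw.pos hn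
  obtain ⟨V, g, e, hT⟩ := distinguished_cocone_triangle w
  have hV : IsFiniteSpectrum V := Thick.cone hT (hF.shift d) hF
  have hV' : TypeGE K (n + 1) V := TypeGE.cone hT hF' hw.iso
  have hT' := TensorTriangulated.distinguished L _ hT
  -- `L ⊗ V = 0`
  have h0 : IsZero (L ⊗ V) := by
    have h1 : IsLocal (fun _ : Unit => K n) (L ⊗ V) := isLocal_thick hL (thick_tensor_finite L hV)
    rw [IsZero.iff_id_eq_zero]
    refine h1 _ (fun _ => ?_) _
    have h2 : IsZero (K n ⊗ V) := hV' n (by omega)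
    have h3 : IsZero ((K n ⊗ V) ⊗ L) := by
      rw [IsZero.iff_id_eq_zero] at h2 ⊢
      rw [← id_whiskerRight, h2, MonoidalPreadditive.zero_whiskerRight]
    exact h3.of_iso (whiskerLeftIso (K n) (β_ L V) ≪≫ (α_ (K n) V L).symm)
  have hiso : IsIso (L ◁ w) := (Triangle.isZero₃_iff_isIso₁ _ hT').1 h0
  obtain ⟨ε⟩ := nonempty_tensorShift L F d
  have step : ∀ i, Finite ((𝟙_ C)⟦i + d⟧ ⟶ L ⊗ F) → Finite ((𝟙_ C)⟦i⟧ ⟶ L ⊗ F) := by
    intro i hi
    have h1 : Finite ((𝟙_ C)⟦i + d⟧ ⟶ (L ⊗ F)⟦d⟧) :=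
      Finite.of_surjective (fun f : (𝟙_ C)⟦i + d⟧ ⟶ L ⊗ F => f ≫ inv (L ◁ w) ≫ ε.hom)
        (fun f => ⟨f ≫ ε.inv ≫ (L ◁ w), by simp⟩)
    refine Finite.of_injective (β := (𝟙_ C)⟦i + d⟧ ⟶ (L ⊗ F)⟦d⟧)
      (fun f => (shiftFunctorAdd C i d).hom.app (𝟙_ C) ≫ f⟦d⟧') (fun f g hfg => ?_)
    apply (shiftFunctor C d).map_injective
    exact (cancel_epi ((shiftFunctorAdd C i d).hom.app (𝟙_ C))).1 hfg
  have key : ∀ N : ℕ, ∀ i, M ≤ i + N → Finite ((𝟙_ C)⟦i⟧ ⟶ L ⊗ F) := by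
    intro N
    induction N with
    | zero => exact fun i hi => hM i (by simpa using hi)
    | succ N ih =>
      intro i hi
      exact step i (ih _ (by push_cast at hi; omega))
  intro i
  exact key (M - i).toNat i (by
    have := Int.self_le_toNat (M - i)
    omega)

end

lemma trW_of_bijective {A Y : C} {f : A ⟶ Y} {N : ℤ}
    (h : ∀ i, N ≤ i → Function.Bijective (fun x : (𝟙_ C)⟦i⟧ ⟶ A => x ≫ f)) : aboveP.trW f := by
  obtain ⟨E, g, e, hT⟩ := distinguished_cocone_triangle f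
  refine ⟨E, g, e, hT, N + 1, fun i hi z => ?_⟩
  have h2 : z ≫ e = 0 := by
    obtain ⟨y, hy⟩ := shift_rep (W := 𝟙_ C) (X := A) i 1 (i - 1) (by ring) (z ≫ e)
    have h3 : (z ≫ e) ≫ f⟦(1 : ℤ)⟧' = 0 := by
      have hz : e ≫ f⟦(1 : ℤ)⟧' = 0 := comp_distTriang_mor_zero₃₁ _ hT
      rw [Category.assoc, hz, comp_zero]
    rw [hy, Category.assoc, ← Functor.map_comp] at h3
    have h4 : (y ≫ f)⟦(1 : ℤ)⟧' = 0 := by
      rwa [Preadditive.IsIso.comp_left_eq_zero] at h3
    have h5 : y ≫ f = 0 := by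
      apply (shiftFunctor C (1 : ℤ)).map_injective
      rw [h4, Functor.map_zero]
    have h6 : y = 0 := (h (i - 1) (by omega)).1 (by
      change y ≫ f = 0 ≫ f
      rw [h5, zero_comp])
    rw [hy, h6]
    simp
  obtain ⟨y, hy⟩ : ∃ y : (𝟙_ C)⟦i⟧ ⟶ Y, z = y ≫ g := Triangle.coyoneda_exact₃ _ hT z h2
  obtain ⟨x, hx⟩ := (h i (by omega)).2 y
  have hz : f ≫ g = 0 := comp_distTriang_mor_zero₁₂ _ hT
  change x ≫ f = y at hx
  rw [hy, ← hx, Category.assoc, hz, comp_zero]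

end Vale.Agent.P221
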