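import Vale.Agent.P221.H240.Torsion

/-!
Modules over ring spectra of height exactly `n` (P221).
-/

set_option linter.unusedSectionVars false
set_option linter.unusedVariables false

open CategoryTheory Limits Pretriangulated MonoidalCategory
open scoped ZeroObject

universe v u

namespace Vale.Agent.P221

open Vale.Agent.P261

variable {C : Type u} [Category.{v} C] [Preadditive C] [HasZeroObject C]
    [HasShift C ℤ] [∀ n : ℤ, (shiftFunctor C n).Additive] [Pretriangulated C]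
    [MonoidalCategory C]

variable [TensorTriangulated C]

section iso

lemma isIso_whisker_of_conj {E W W' V V' : C} {f : W ⟶ W'} {g : V ⟶ V'} (e : W ≅ V)
    (e' : W' ≅ V') (h : f ≫ e'.hom = e.hom ≫ g) (hf : IsIso (E ◁ f)) : IsIso (E ◁ g) := by
  have h1 : g = e.inv ≫ f ≫ e'.hom := by rw [h]; simp
  rw [h1, MonoidalCategory.whiskerLeft_comp, MonoidalCategory.whiskerLeft_comp]
  infer_instance

lemma isIso_whisker_shift_one {E W W' : C} {f : W ⟶ W'} (hf : IsIso (E ◁ f)) :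
    IsIso (E ◁ (f⟦(1 : ℤ)⟧')) := by
  have h := TensorTriangulated.shiftIso_natural E f
  have h1 : E ◁ (f⟦(1 : ℤ)⟧') = (TensorTriangulated.shiftIso E W).hom ≫ (E ◁ f)⟦(1 : ℤ)⟧' ≫
      (TensorTriangulated.shiftIso E W').inv := by
    rw [← Category.assoc, ← h]
    simp
  rw [h1]
  infer_instance

lemma isIso_whisker_of_shift_one {E W W' : C} {f : W ⟶ W'} (hf : IsIso (E ◁ (f⟦(1 : ℤ)⟧'))) :
    IsIso (E ◁ f) := by
  have h := TensorTriangulated.shiftIso_natural E f
  have h1 : (E ◁ f)⟦(1 : ℤ)⟧' = (TensorTriangulated.shiftIso E W).inv ≫ (E ◁ (f⟦(1 : ℤ)⟧')) ≫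
      (TensorTriangulated.shiftIso E W').hom := by
    rw [h]
    simp
  have h2 : IsIso ((E ◁ f)⟦(1 : ℤ)⟧') := by
    rw [h1]
    infer_instance
  exact isIso_of_reflects_iso (E ◁ f) (shiftFunctor C (1 : ℤ))

lemma isIso_whisker_shift_neg_one {E W W' : C} {f : W ⟶ W'} (hf : IsIso (E ◁ f)) :
    IsIso (E ◁ (f⟦(-1 : ℤ)⟧')) := by
  apply isIso_whisker_of_shift_one
  refine isIso_whisker_of_conj (shiftNegShift W (1 : ℤ)).symm (shiftNegShift W' (1 : ℤ)).symm
    ?_ hf
  exact (shiftFunctorCompIsoId C (-1 : ℤ) 1 (by simp)).inv.naturality f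

lemma isIso_whisker_shift {E W W' : C} {f : W ⟶ W'} (hf : IsIso (E ◁ f)) (a : ℤ) :
    IsIso (E ◁ (f⟦a⟧')) := by
  induction a using Int.induction_on with
  | zero =>
    exact isIso_whisker_of_conj ((shiftFunctorZero C ℤ).app W).symm
      ((shiftFunctorZero C ℤ).app W').symm ((shiftFunctorZero C ℤ).inv.naturality f) hf
  | succ a ih =>
    exact isIso_whisker_of_conj ((shiftFunctorAdd C (a : ℤ) 1).app W).symm
      ((shiftFunctorAdd C (a : ℤ) 1).app W').symm
      ((shiftFunctorAdd C (a : ℤ) 1).inv.naturality f)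
      (isIso_whisker_shift_one ih)
  | pred a ih =>
    exact isIso_whisker_of_conj ((shiftFunctorAdd C (-(a : ℤ)) (-1)).app W).symm
      ((shiftFunctorAdd C (-(a : ℤ)) (-1)).app W').symm
      ((shiftFunctorAdd C (-(a : ℤ)) (-1)).inv.naturality f)
      (isIso_whisker_shift_neg_one ih)

lemma isIso_whisker_wpow {E F : C} {d : ℤ} {w : F⟦d⟧ ⟶ F} (hw : IsIso (E ◁ w)) (N : ℕ) :
    IsIso (E ◁ wpow w N) := by
  induction N with
  | zero =>
    rw [wpow]
    infer_instance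
  | succ N ih =>
    have h1 : IsIso (E ◁ (w⟦(N : ℤ) * d⟧')) := isIso_whisker_shift hw _
    rw [wpow, shiftMap, MonoidalCategory.whiskerLeft_comp, MonoidalCategory.whiskerLeft_comp]
    infer_instance

end iso

/-- If `R ◁ f = 0` and `X` is a unital module over `R` then `X ◁ f = 0`. -/
lemma whisker_eq_zero_of_module {R X F F' : C} [MonObj R] {a : X ⊗ R ⟶ X}
    (ha : (ρ_ X).inv ≫ X ◁ MonObj.one (X := R) ≫ a = 𝟙 X) {f : F' ⟶ F} (hf : R ◁ f = 0) :
    X ◁ f = 0 := by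
  have h0 : (X ⊗ R) ◁ f = 0 := by
    rw [MonoidalCategory.tensor_whiskerLeft, hf]
    simp
  have h1 : X ◁ f = ((ρ_ X).inv ≫ X ◁ MonObj.one (X := R)) ▷ F' ≫ ((X ⊗ R) ◁ f) ≫ a ▷ F := by
    rw [whisker_exchange, ← Category.assoc, ← comp_whiskerRight, Category.assoc, ha]
    simp
  rw [h1, h0]
  simp

/-- A split mono into the tensor product with the cofibre of a map which dies on `X`. -/
lemma exists_retract_cone {X F F' V : C} {f : F' ⟶ F} {g : F ⟶ V} {e : V ⟶ F'⟦(1 : ℤ)⟧}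
    (hT : Triangle.mk f g e ∈ distTriang C) (hf : X ◁ f = 0) :
    ∃ r : X ⊗ V ⟶ X ⊗ F, (X ◁ g) ≫ r = 𝟙 (X ⊗ F) := by
  have hT' := TensorTriangulated.distinguished X _ hT
  obtain ⟨r, hr⟩ : ∃ r : X ⊗ V ⟶ X ⊗ F, 𝟙 (X ⊗ F) = (X ◁ g) ≫ r :=
    Triangle.yoneda_exact₂ _ hT' (𝟙 (X ⊗ F)) (by
      change (X ◁ f) ≫ 𝟙 _ = 0
      rw [hf, zero_comp])
  exact ⟨r, hr.symm⟩

/-- `X` is a retract of `X ⊗ F` for a finite spectrum `F` of type at least `n`. -/
def IsTorsion (K : ℕ → C) (n : ℕ) (X : C) : Prop :=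
  ∃ F : C, IsFiniteSpectrum F ∧ TypeGE K n F ∧ ∃ (i : X ⟶ X ⊗ F) (r : X ⊗ F ⟶ X), i ≫ r = 𝟙 X

section

variable [BraidedCategory C] {K : ℕ → C} {H : C} {n : ℕ}

lemma whisker_tensor_eq_zero {E R F F' : C} {f : F' ⟶ F} (hf : E ◁ f = 0) : (E ⊗ R) ◁ f = 0 := by
  have h0 : (R ⊗ E) ◁ f = 0 := by
    rw [MonoidalCategory.tensor_whiskerLeft, hf]
    simp
  have h1 : (E ⊗ R) ◁ f = (β_ E R).hom ▷ F' ≫ ((R ⊗ E) ◁ f) ≫ (β_ E R).inv ▷ F := by
    rw [whisker_exchange, ← Category.assoc, ← comp_whiskerRight]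
    simp
  rw [h1, h0]
  simp

/-- A unital module over a ring spectrum `R` with `K j ⊗ R = 0` for all `j < n` is a retract of
its tensor product with a finite spectrum of type at least `n`. -/
theorem isTorsion_of_module (hper : Periodicity C K H) (hnil : NilpotenceTheorem C K H)
    {R X : C} [MonObj R] (hR : ∀ j, j < n → IsZero (K j ⊗ R)) {a : X ⊗ R ⟶ X}
    (ha : (ρ_ X).inv ≫ X ◁ MonObj.one (X := R) ≫ a = 𝟙 X) : IsTorsion K n X := by
  have key : ∀ j, j ≤ n → IsTorsion K j X := by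
    intro j
    induction j with
    | zero =>
      intro _
      exact ⟨𝟙_ C, Thick.of rfl, fun j hj => absurd hj (Nat.not_lt_zero _),
        (ρ_ X).inv, (ρ_ X).hom, by simp⟩
    | succ j ih =>
      intro hj
      obtain ⟨F, hF, hF', i, r, hir⟩ := ih (by omega)
      obtain ⟨d, w, hw⟩ := hper j F hF hF'
      obtain ⟨N, hN⟩ := hnil R F hF d w (fun m => by
        by_cases hm : m = j
        · subst hm
          refine ⟨0, ?_⟩
          have h1 : IsZero ((K m ⊗ R) ⊗ F) := isZero_tensor_left (hR m (by omega))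
          exact h1.eq_of_tgt _ _
        · obtain ⟨N, hN⟩ := hw.nilp m hm
          exact ⟨N, whisker_tensor_eq_zero hN⟩) (by
        obtain ⟨N, hN⟩ := hw.nilpH
        exact ⟨N, whisker_tensor_eq_zero hN⟩)
      have hX0 : X ◁ wpow w N = 0 := whisker_eq_zero_of_module ha hN
      obtain ⟨V, g, e, hT⟩ := distinguished_cocone_triangle (wpow w N)
      obtain ⟨r', hr'⟩ := exists_retract_cone hT hX0
      refine ⟨V, Thick.cone hT (hF.shift _) hF, TypeGE.cone hT hF' (isIso_whisker_wpow hw.iso N),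
        i ≫ (X ◁ g), r' ≫ r, ?_⟩
      rw [Category.assoc, ← Category.assoc (X ◁ g), hr', Category.id_comp, hir]
  exact key n le_rfl

end

end Vale.Agent.P221
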