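import Vale.Agent.P221.H240.Main

/-!
fp-spectra after smashing with a finite spectrum of type at least `n`: the theorem (P221).
-/

set_option linter.unusedSectionVars false
set_option linter.unusedVariables false

open CategoryTheory Limits Pretriangulated MonoidalCategory
open scoped ZeroObject

universe v u

namespace Vale.Agent.P221

open Vale.Agent.P261

variable {C : Type u} [Category.{v} C] [Preadditive C] [HasZeroObject C]
    [HasShift C ℤ] [∀ n : ℤ, (shiftFunctor C n).Additive] [Pretriangulated C]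
    [MonoidalCategory C]

variable [TensorTriangulated C] [BraidedCategory C]

/-- Tensoring on the right preserves thick subcategories. -/
lemma thick_tensor_right (F : C) {X Y : C} (hY : Thick (fun W => W = X) Y) :
    Thick (fun W => W = X ⊗ F) (Y ⊗ F) := by
  have h : Thick (fun W => W = X ⊗ F) (F ⊗ Y) := by
    refine tensor_thick F (fun Z hZ => ?_) hY
    rw [hZ]
    exact thick_of_iso (β_ F X) (Thick.of rfl)
  exact thick_of_iso (β_ Y F) h

section

variable {K : ℕ → C} {H : C} {p n : ℕ} (hn : 1 ≤ n) (hper : Periodicity C K H)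
  (hthick : ThickTheorem C K) (hMR : MahowaldRezk C p K n)
include hn hper hthick hMR

/-- The data attached to an fp-spectrum, its localization and a finite spectrum. -/
lemma fp_data {X L : C} {η : X ⟶ L} (hX : IsFpTypeLE p K n X)
    (hη : IsBousfieldLocalization (fun _ : Unit => K n) η) {F : C} (hF : IsFiniteSpectrum F)
    (hF' : TypeGE K n F) :
    DegFinite (X ⊗ F) ∧ BddBelow (X ⊗ F) ∧ aboveP.trW (η ▷ F) ∧ DegFinite (L ⊗ F) := by
  obtain ⟨N, hN⟩ := hMR X L η hX hη F hF hF'
  have h1 := hX.degFinite hn hper hthick hF hF'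
  refine ⟨h1, hX.bddBelow.thick (thick_tensor_finite X hF), trW_of_bijective hN, ?_⟩
  refine degFinite_of_local hn hper hη.2 hF hF' (M := N) (fun i hi => ?_)
  have := h1 i
  exact Finite.of_surjective _ (hN i hi).2

variable [IsTriangulated C] [hp : Fact p.Prime] {u : (𝟙_ C)⟦(0 : ℤ)⟧ ⟶ H}
  (hPost : HasPostnikov C) (hH : IsEilenbergMacLane p u)
  (hloc : ∀ (X : C) (q : ℤ), IsCoprime q (p : ℤ) → IsIso (q • 𝟙 X))
  (hex : ∀ X : C, ∃ (L : C) (η : X ⟶ L), IsBousfieldLocalization (fun _ : Unit => K n) η)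
include hPost hH hloc hex

/-- **The theorem.** `X ⊗ F` lies in `Thick(BP⟨n⟩)`. -/
theorem torsion_part {B : C} (hB : IsFpTypeLE p K n B) (hHB : Thick (fun W => W = B) H)
    (hLP : ∀ (B' : C) (η : B ⟶ B'), IsBousfieldLocalization (fun _ : Unit => K n) η →
      LocalTheorem K n B')
    {X : C} (hX : IsFpTypeLE p K n X) {F : C} (hF : IsFiniteSpectrum F) (hF' : TypeGE K n F) :
    Thick (fun W => W = B) (X ⊗ F) := by
  obtain ⟨L, η, hη⟩ := hex X
  obtain ⟨B', ηB, hηB⟩ := hex B
  have hL : Thick (fun W => W = B') L := hLP B' ηB hηB L hη.2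
    (fun F₁ h1 h2 => (fp_data hn hper hthick hMR hX hη h1 h2).2.2.2)
  have hLF := thick_tensor_right F hL
  obtain ⟨a1, a2, a3, a4⟩ := fp_data hn hper hthick hMR hX hη hF hF'
  obtain ⟨b1, b2, b3, b4⟩ := fp_data hn hper hthick hMR hB hηB hF hF'
  have hbase : HasModel (fun W => W = B) (B' ⊗ F) :=
    ⟨B ⊗ F, ηB ▷ F, thick_tensor_finite B hF, b2, b1, b3⟩
  have hm := thick_hasModel hPost hH hloc hHB (Q' := fun W => W = B' ⊗ F) (fun Z hZ => by
    rw [hZ]
    exact ⟨hbase, b4⟩) hLF
  exact HasModel.unique hPost hH hloc hHB hm.2 hm.1 a2 a1 a3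

end

end Vale.Agent.P221
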