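import Vale.Agent.P221.H240.Basic

/-!
Connective covers, bounded objects with finite homotopy groups, and the comparison lemma (P221).
-/

set_option linter.unusedSectionVars false
set_option linter.unusedVariables false

open CategoryTheory Limits Pretriangulated MonoidalCategory
open scoped ZeroObject

universe v u

namespace Vale.Agent.P221

open Vale.Agent.P261

variable {C : Type u} [Category.{v} C] [Preadditive C] [HasZeroObject C]
    [HasShift C ℤ] [∀ n : ℤ, (shiftFunctor C n).Additive] [Pretriangulated C]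
    [MonoidalCategory C]

lemma isZero_of_vanish (hPost : HasPostnikov C) {W : C} (h : ∀ i, Vanish W i) : IsZero W := by
  rw [IsZero.iff_id_eq_zero]
  exact hPost.orth W W 0 (fun i _ => h i) (fun i _ => h i) _

lemma finite_of_vanish {W : C} {i : ℤ} (h : Vanish W i) : Finite ((𝟙_ C)⟦i⟧ ⟶ W) :=
  @Finite.of_subsingleton _ ⟨fun a b => by rw [h a, h b]⟩

variable {Q : C → Prop}

lemma thick_of_iso {X Y : C} (e : X ≅ Y) (h : Thick Q Y) : Thick Q X :=
  Thick.retract e.hom e.inv e.hom_inv_id h

lemma thick_zero {X : C} (hX : Thick Q X) {W : C} (hW : IsZero W) : Thick Q W := by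
  have h := Thick.cone (contractible_distinguished X) hX hX
  exact thick_of_iso (hW.iso (isZero_zero C)) h

lemma thick_obj₂ {T : Triangle C} (hT : T ∈ distTriang C) (h₁ : Thick Q T.obj₁)
    (h₃ : Thick Q T.obj₃) : Thick Q T.obj₂ :=
  Thick.cone (inv_rot_of_distTriang T hT) (h₃.shift (-1)) h₁

lemma thick_obj₁ {T : Triangle C} (hT : T ∈ distTriang C) (h₂ : Thick Q T.obj₂)
    (h₃ : Thick Q T.obj₃) : Thick Q T.obj₁ :=
  Thick.cone (inv_rot_of_distTriang _ (inv_rot_of_distTriang T hT)) (h₂.shift (-1)) (h₃.shift (-1))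

section em

variable {p : ℕ} [hp : Fact p.Prime] {H : C} {u : (𝟙_ C)⟦(0 : ℤ)⟧ ⟶ H}

/-- An object with finite homotopy concentrated in degree `0` is built from `H`. -/
lemma thick_of_concentrated (hPost : HasPostnikov C) (hH : IsEilenbergMacLane p u)
    (hloc : ∀ (X : C) (q : ℤ), IsCoprime q (p : ℤ) → IsIso (q • 𝟙 X)) (hHQ : Thick Q H)
    (N : ℕ) : ∀ (W : C), (∀ i, i ≠ 0 → Vanish W i) → Finite ((𝟙_ C)⟦(0 : ℤ)⟧ ⟶ W) →
      Nat.card ((𝟙_ C)⟦(0 : ℤ)⟧ ⟶ W) ≤ N → Thick Q W := by
  induction N with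
  | zero =>
    intro W _ hfin hN
    have := Nat.card_pos (α := (𝟙_ C)⟦(0 : ℤ)⟧ ⟶ W)
    omega
  | succ N ih =>
    intro W hW hfin hN
    by_cases h0 : Vanish W 0
    · refine thick_zero hHQ (isZero_of_vanish hPost (fun i => ?_))
      by_cases hi : i = 0
      · rw [hi]
        exact h0
      · exact hW i hi
    -- an element of order `p`
    obtain ⟨x, hx0, hpx⟩ : ∃ x : (𝟙_ C)⟦(0 : ℤ)⟧ ⟶ W, x ≠ 0 ∧ (p : ℤ) • x = 0 := by
      unfold Vanish at h0
      push Not at h0
      obtain ⟨y, hy⟩ := h0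
      have hpos := addOrderOf_pos y
      have hdvd : p ∣ addOrderOf y := by
        by_contra hnd
        have hcop : IsCoprime ((addOrderOf y : ℕ) : ℤ) (p : ℤ) := by
          rw [Nat.isCoprime_iff_coprime]
          exact ((Nat.Prime.coprime_iff_not_dvd hp.out).mpr hnd).symm
        have hiso := hloc W _ hcop
        apply hy
        rw [← cancel_mono (((addOrderOf y : ℕ) : ℤ) • 𝟙 W), Preadditive.comp_zsmul,
          Category.comp_id, zero_comp, natCast_zsmul, addOrderOf_nsmul_eq_zero]
      obtain ⟨k, hk⟩ := hdvd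
      refine ⟨k • y, fun hky => ?_, ?_⟩
      · have h1 : addOrderOf y ∣ k := addOrderOf_dvd_iff_nsmul_eq_zero.mpr hky
        have h2 : k ≠ 0 := by
          rintro rfl
          rw [mul_zero] at hk
          omega
        have h3 := Nat.le_of_dvd (Nat.pos_of_ne_zero h2) h1
        have h4 := hp.out.two_le
        nlinarith [Nat.pos_of_ne_zero h2]
      · rw [natCast_zsmul, ← mul_nsmul', ← hk, addOrderOf_nsmul_eq_zero]
    obtain ⟨φ, hφ⟩ := hH.lift W hW x hpx
    obtain ⟨W', g, e, hT⟩ := distinguished_cocone_triangle φ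
    -- `φ` is injective on `π_0`
    have hinj : ∀ y : (𝟙_ C)⟦(0 : ℤ)⟧ ⟶ H, y ≫ φ = 0 → y = 0 := by
      intro y hy
      obtain ⟨k, rfl⟩ := hH.gen y
      rw [Preadditive.zsmul_comp, hφ] at hy
      have hpk : (p : ℤ) ∣ k := by
        by_contra hnd
        have hcop : IsCoprime (p : ℤ) k :=
          (Prime.coprime_iff_not_dvd (Nat.prime_iff_prime_int.mp hp.out)).mpr hnd
        obtain ⟨a, b, hab⟩ := hcop
        apply hx0
        have : x = (a * p + b * k) • x := by rw [hab, one_zsmul]
        rw [this, add_zsmul, mul_zsmul, mul_zsmul, hpx, hy]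
        simp
      obtain ⟨l, rfl⟩ := hpk
      rw [mul_comm, mul_zsmul, hH.torsion, zsmul_zero]
    have hW' : ∀ i, i ≠ 0 → Vanish W' i := by
      intro i hi
      by_cases h1 : i = 1
      · subst h1
        intro z
        have h2 : z ≫ e = 0 := by
          obtain ⟨y, hy⟩ := shift_rep (W := 𝟙_ C) (X := H) 1 1 0 (by norm_num) (z ≫ e)
          have h3 : (z ≫ e) ≫ φ⟦(1 : ℤ)⟧' = 0 := by
            have hz : e ≫ φ⟦(1 : ℤ)⟧' = 0 := comp_distTriang_mor_zero₃₁ _ hT
            rw [Category.assoc, hz, comp_zero]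
          rw [hy, Category.assoc, ← Functor.map_comp] at h3
          have h4 : (y ≫ φ)⟦(1 : ℤ)⟧' = 0 := by
            rwa [Preadditive.IsIso.comp_left_eq_zero] at h3
          have h5 : y ≫ φ = 0 := by
            apply (shiftFunctor C (1 : ℤ)).map_injective
            rw [h4, Functor.map_zero]
          rw [hy, hinj y h5]
          simp
        obtain ⟨y, hy⟩ : ∃ y : (𝟙_ C)⟦(1 : ℤ)⟧ ⟶ W, z = y ≫ g := Triangle.coyoneda_exact₃ _ hT z h2
        rw [hy, hW 1 (by norm_num) y, zero_comp]
      · exact Vanish.obj₃ hT (hH.vanish _ (by omega)) (hW i hi)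
    -- `π_0 W ⟶ π_0 W'` is onto and not injective
    have hsurj : Function.Surjective (fun y : (𝟙_ C)⟦(0 : ℤ)⟧ ⟶ W => y ≫ g) := by
      intro z
      have h2 : z ≫ e = 0 := (hH.vanish (-1) (by norm_num)).shift (i := 0) (by norm_num) _
      obtain ⟨y, hy⟩ := Triangle.coyoneda_exact₃ _ hT z h2
      exact ⟨y, hy.symm⟩
    have hfin' : Finite ((𝟙_ C)⟦(0 : ℤ)⟧ ⟶ W') := Finite.of_surjective _ hsurj
    have hcard : Nat.card ((𝟙_ C)⟦(0 : ℤ)⟧ ⟶ W') < Nat.card ((𝟙_ C)⟦(0 : ℤ)⟧ ⟶ W) := by
      refine lt_of_le_of_ne (Nat.card_le_card_of_surjective _ hsurj) (fun hc => ?_)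
      have hbij := (Nat.bijective_iff_surjective_and_card
        (fun y : (𝟙_ C)⟦(0 : ℤ)⟧ ⟶ W => y ≫ g)).mpr ⟨hsurj, hc.symm⟩
      apply hx0
      apply hbij.1
      change x ≫ g = 0 ≫ g
      have hz : φ ≫ g = 0 := comp_distTriang_mor_zero₁₂ _ hT
      rw [zero_comp, ← hφ, Category.assoc, hz, comp_zero]
    exact thick_obj₂ hT hHQ (ih W' hW' hfin' (by omega))

/-- A bounded object with finite homotopy groups is built from `H`. -/
lemma thick_of_bounded (hPost : HasPostnikov C) (hH : IsEilenbergMacLane p u)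
    (hloc : ∀ (X : C) (q : ℤ), IsCoprime q (p : ℤ) → IsIso (q • 𝟙 X)) (hHQ : Thick Q H)
    {W : C} (h₁ : BddBelow W) (h₂ : BddAbove' W) (h₃ : DegFinite W) : Thick Q W := by
  obtain ⟨m, hm⟩ := h₁
  obtain ⟨M, hM⟩ := h₂
  have key : ∀ (N : ℕ) (W : C) (m : ℤ), (∀ i, i < m → Vanish W i) →
      (∀ i, m + N ≤ i → Vanish W i) → DegFinite W → Thick Q W := by
    intro N
    induction N with
    | zero =>
      intro W m h1 h2 _
      refine thick_zero hHQ (isZero_of_vanish hPost (fun i => ?_))
      rcases lt_or_ge i m with h | h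
      · exact h1 i h
      · exact h2 i (by simpa using h)
    | succ N ih =>
      intro W m h1 h2 h3
      obtain ⟨A, E, f, g, h, hT, hA, hE⟩ := hPost.cover W (m + 1)
      have hE' : ∀ i, i ≠ m → Vanish E i := by
        intro i hi
        rcases lt_or_ge i m with hlt | hge
        · exact Vanish.obj₃ hT (hA _ (by omega)) (h1 i hlt)
        · exact hE i (by omega)
      have hEfin : Finite ((𝟙_ C)⟦m⟧ ⟶ E) := by
        refine finite_obj₃ hT ?_ (h3 m)
        exact finite_of_vanish (hA _ (by omega))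
      have hAfin : DegFinite A := by
        intro i
        refine finite_obj₁ hT (h3 i) ?_
        by_cases hi : i + 1 = m
        · rw [hi]
          exact hEfin
        · exact finite_of_vanish (hE' _ hi)
      have hAt : Thick Q A := by
        refine ih A (m + 1) hA (fun i hi => ?_) hAfin
        exact Vanish.obj₁ hT (h2 i (by push_cast; omega)) (hE' _ (by omega))
      have hEt : Thick Q (E⟦-m⟧) := by
        refine thick_of_concentrated hPost hH hloc hHQ _ _ (fun i hi => ?_) ?_ le_rfl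
        · exact (hE' (i + m) (by omega)).shift (by ring)
        · exact finite_shift (j := m) (by ring) hEfin
      have hEt' : Thick Q E := thick_of_iso (shiftNegShift E m).symm (hEt.shift m)
      exact thick_obj₂ hT hAt hEt'
  refine key (M - m).toNat W m hm (fun i hi => ?_) h₃
  rcases le_or_gt M i with h | h
  · exact hM i h
  · exact hm i (by omega)

end em

end Vale.Agent.P221
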